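import Vale.Agent.Lib.P173.Interface
import Vale.Agent.Lib.P173.WBase

/-!
# P173 part W: normal form by pilings

A state is a family of stacks (one for each vertex) and a natural number.  `push v a` puts the
letter `a` on top of the stack of `v` and `none` on top of the stacks of all vertices which are
neither equal nor adjacent to `v`.  The graph product acts on the valid states.
-/

namespace Vale.Agent.P173
namespace Pil

open scoped Classical

variable {K : ColGraph} {A : Type} [CommGroup A]

/-- states: stacks and length -/
abbrev St (K : ColGraph) (A : Type) : Type := (K.V → List (Option A)) × ℕ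

/-- the empty state -/
def emp : St K A := (fun _ => [], 0)

/-- put the letter `a` on top of the stack of `v` -/
noncomputable def push (v : K.V) (a : A) (s : St K A) : St K A :=
  (fun u => if u = v then some a :: s.1 u else if K.adj u v then s.1 u else none :: s.1 u, s.2 + 1)

/-- the top of the stack of `v` is a letter -/
def In (s : St K A) (v : K.V) : Prop := ∃ b : A, (s.1 v).head? = some (some b)

theorem push_same (v : K.V) (a : A) (s : St K A) : (push v a s).1 v = some a :: s.1 v := by
  unfold push
  exact if_pos rfl

theorem push_adj {u v : K.V} (h : K.adj u v) (a : A) (s : St K A) : (push v a s).1 u = s.1 u := by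
  unfold push
  have h1 : u ≠ v := K.ne_of_adj h
  change (if u = v then some a :: s.1 u else if K.adj u v then s.1 u else none :: s.1 u) = s.1 u
  rw [if_neg h1, if_pos h]

theorem push_far {u v : K.V} (h1 : u ≠ v) (h : ¬ K.adj u v) (a : A) (s : St K A) :
    (push v a s).1 u = none :: s.1 u := by
  unfold push
  change (if u = v then some a :: s.1 u else if K.adj u v then s.1 u else none :: s.1 u) = _
  rw [if_neg h1, if_neg h]

theorem push_snd (v : K.V) (a : A) (s : St K A) : (push v a s).2 = s.2 + 1 := rfl

theorem push_comm {v w : K.V} (h : K.adj v w) (a b : A) (s : St K A) :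
    push v a (push w b s) = push w b (push v a s) := by
  have h' : K.adj w v := K.symm v w h
  refine Prod.ext (funext fun u => ?_) rfl
  by_cases h1 : u = v
  · subst h1
    rw [push_same, push_adj h, push_adj h, push_same]
  · by_cases h2 : u = w
    · subst h2
      rw [push_adj h', push_same, push_same, push_adj h']
    · by_cases h3 : K.adj u v
      · by_cases h4 : K.adj u w
        · rw [push_adj h3, push_adj h4, push_adj h4, push_adj h3]
        · rw [push_adj h3, push_far h2 h4, push_far h2 h4, push_adj h3]
      · by_cases h4 : K.adj u w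
        · rw [push_far h1 h3, push_adj h4, push_adj h4, push_far h1 h3]
        · rw [push_far h1 h3, push_far h2 h4, push_far h2 h4, push_far h1 h3]

theorem push_inj {v : K.V} {a b : A} {s t : St K A} (h : push v a s = push v b t) :
    a = b ∧ s = t := by
  have hv : some a :: s.1 v = some b :: t.1 v := by
    rw [← push_same, ← push_same, h]
  have hab : a = b := by
    have := (List.cons.inj hv).1
    exact Option.some.inj this
  refine ⟨hab, Prod.ext (funext fun u => ?_) ?_⟩
  · by_cases h1 : u = v
    · subst h1
      exact (List.cons.inj hv).2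
    · by_cases h2 : K.adj u v
      · rw [← push_adj h2 a s, h, push_adj h2]
      · have h3 : none :: s.1 u = none :: t.1 u := by
          rw [← push_far h1 h2 a s, h, push_far h1 h2]
        exact (List.cons.inj h3).2
  · have h3 : s.2 + 1 = t.2 + 1 := by
      rw [← push_snd v a s, h, push_snd]
    exact Nat.succ.inj h3

theorem In_push_same (v : K.V) (a : A) (s : St K A) : In (push v a s) v :=
  ⟨a, by rw [push_same]; rfl⟩

theorem In_push_adj {u v : K.V} (h : K.adj u v) (a : A) (s : St K A) :
    In (push v a s) u ↔ In s u := by
  unfold In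
  rw [push_adj h]

theorem not_In_push_far {u v : K.V} (h1 : u ≠ v) (h : ¬ K.adj u v) (a : A) (s : St K A) :
    ¬ In (push v a s) u := by
  rintro ⟨b, hb⟩
  rw [push_far h1 h, List.head?_cons] at hb
  exact absurd (Option.some.inj hb) (by simp)

/-- valid states -/
inductive Valid : St K A → Prop
  | nil : Valid emp
  | push (s : St K A) (v : K.V) (a : A) : Valid s → ¬ In s v → a ≠ 1 → Valid (push v a s)

theorem not_In_emp (v : K.V) : ¬ In (emp : St K A) v := by
  rintro ⟨b, hb⟩
  have h : ((emp : St K A).1 v).head? = none := rfl
  rw [h] at hb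
  exact absurd hb (by simp)

theorem valid_pop {s : St K A} (hs : Valid s) (v : K.V) (hv : In s v) :
    ∃ (t : St K A) (b : A), Valid t ∧ ¬ In t v ∧ b ≠ 1 ∧ s = push v b t := by
  induction hs with
  | nil => exact absurd hv (not_In_emp v)
  | push s u a hs hu ha ih =>
    by_cases h1 : v = u
    · subst h1
      exact ⟨s, a, hs, hu, ha, rfl⟩
    · by_cases h2 : K.adj v u
      · rw [In_push_adj h2] at hv
        obtain ⟨t, b, ht, hvt, hb, e⟩ := ih hv
        have h2' : K.adj u v := K.symm v u h2
        refine ⟨push u a t, b, Valid.push t u a ht ?_ ha, ?_, hb, ?_⟩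
        · intro h3
          apply hu
          rw [e, In_push_adj h2']
          exact h3
        · rw [In_push_adj h2]
          exact hvt
        · rw [e, push_comm h2']
      · exact absurd hv (not_In_push_far h1 h2 a s)

theorem pairwise {s : St K A} (hs : Valid s) {u v : K.V} (hu : In s u) (hv : In s v)
    (huv : u ≠ v) : K.adj u v := by
  induction hs with
  | nil => exact absurd hu (not_In_emp u)
  | push s x a hs hx ha ih =>
    by_cases h1 : u = x
    · subst h1
      by_contra h2
      exact not_In_push_far (Ne.symm huv) (fun h => h2 (K.symm _ _ h)) a s hv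
    · by_cases h2 : v = x
      · subst h2
        by_contra h3
        exact not_In_push_far huv h3 a s hu
      · by_cases h3 : K.adj u x
        · by_cases h4 : K.adj v x
          · rw [In_push_adj h3] at hu
            rw [In_push_adj h4] at hv
            exact ih hu hv
          · exact absurd hv (not_In_push_far h2 h4 a s)
        · exact absurd hu (not_In_push_far h1 h3 a s)

/-- put a letter on the stack if it is not trivial -/
noncomputable def put (v : K.V) (c : A) (s : St K A) : St K A := if c = 1 then s else push v c s

theorem put_one (v : K.V) (s : St K A) : put v 1 s = s := if_pos rfl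

theorem put_ne {c : A} (h : c ≠ 1) (v : K.V) (s : St K A) : put v c s = push v c s := if_neg h

theorem valid_put {s : St K A} (hs : Valid s) {v : K.V} (hv : ¬ In s v) (c : A) :
    Valid (put v c s) := by
  by_cases h : c = 1
  · rw [h, put_one]
    exact hs
  · rw [put_ne h]
    exact Valid.push s v c hs hv h

theorem decomp {s : St K A} (hs : Valid s) (v : K.V) :
    ∃ (t : St K A) (c : A), Valid t ∧ ¬ In t v ∧ s = put v c t := by
  by_cases h : In s v
  · obtain ⟨t, b, ht, hv, hb, e⟩ := valid_pop hs v h
    exact ⟨t, b, ht, hv, by rw [e, put_ne hb]⟩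
  · exact ⟨s, 1, hs, h, (put_one v s).symm⟩

theorem put_inj {v : K.V} {a b : A} {s t : St K A} (hs : ¬ In s v) (ht : ¬ In t v)
    (h : put v a s = put v b t) : a = b ∧ s = t := by
  by_cases h1 : a = 1
  · by_cases h2 : b = 1
    · rw [h1, h2, put_one, put_one] at h
      exact ⟨by rw [h1, h2], h⟩
    · rw [h1, put_one, put_ne h2] at h
      exact absurd (h ▸ In_push_same v b t) hs
  · by_cases h2 : b = 1
    · rw [h2, put_one, put_ne h1] at h
      exact absurd (h ▸ In_push_same v a s) ht
    · rw [put_ne h1, put_ne h2] at h
      exact push_inj h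

theorem put_comm {v w : K.V} (h : K.adj v w) (a b : A) (s : St K A) :
    put v a (put w b s) = put w b (put v a s) := by
  by_cases h1 : a = 1
  · rw [h1, put_one, put_one]
  · by_cases h2 : b = 1
    · rw [h2, put_one, put_one]
    · rw [put_ne h1, put_ne h2, put_ne h1, put_ne h2, push_comm h]

theorem In_put_adj {u v : K.V} (h : K.adj u v) (a : A) (s : St K A) :
    In (put v a s) u ↔ In s u := by
  by_cases h1 : a = 1
  · rw [h1, put_one]
  · rw [put_ne h1, In_push_adj h]

/-- the type of valid states -/
abbrev VS (K : ColGraph) (A : Type) [CommGroup A] : Type := {s : St K A // Valid s}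

/-- the action of a letter on a valid state -/
noncomputable def act (v : K.V) (a : A) (s : VS K A) : VS K A :=
  ⟨put v ((decomp s.2 v).choose_spec.choose * a) (decomp s.2 v).choose,
    valid_put (decomp s.2 v).choose_spec.choose_spec.1
      (decomp s.2 v).choose_spec.choose_spec.2.1 _⟩

theorem act_eq {v : K.V} {s : VS K A} {t : St K A} {c : A} (ht : ¬ In t v)
    (h : s.1 = put v c t) (a : A) : (act v a s).1 = put v (c * a) t := by
  have h1 := (decomp s.2 v).choose_spec.choose_spec
  have h2 : put v c t = put v (decomp s.2 v).choose_spec.choose (decomp s.2 v).choose := by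
    rw [← h]
    exact h1.2.2
  obtain ⟨e1, e2⟩ := put_inj ht h1.2.1 h2
  change put v ((decomp s.2 v).choose_spec.choose * a) (decomp s.2 v).choose = _
  rw [← e1, ← e2]

theorem act_one (v : K.V) (s : VS K A) : act v 1 s = s := by
  obtain ⟨t, c, _, hv, e⟩ := decomp s.2 v
  apply Subtype.ext
  rw [act_eq hv e, mul_one, e]

theorem act_act (v : K.V) (a b : A) (s : VS K A) : act v a (act v b s) = act v (a * b) s := by
  obtain ⟨t, c, _, hv, e⟩ := decomp s.2 v
  apply Subtype.ext
  rw [act_eq hv (act_eq hv e b) a, act_eq hv e (a * b)]
  congr 1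
  rw [mul_assoc, mul_comm b a]

theorem act_comm {v w : K.V} (h : K.adj v w) (a b : A) (s : VS K A) :
    act v a (act w b s) = act w b (act v a s) := by
  have h' : K.adj w v := K.symm v w h
  obtain ⟨q, c, hq, hv, e⟩ := decomp s.2 v
  obtain ⟨r, d, hr, hw, e'⟩ := decomp hq w
  have hvr : ¬ In r v := by
    intro h1
    apply hv
    rw [e', In_put_adj h]
    exact h1
  have hvd : ∀ d', ¬ In (put w d' r) v := fun d' h1 => hvr ((In_put_adj h d' r).1 h1)
  have hwc : ∀ c', ¬ In (put v c' r) w := fun c' h1 => hw ((In_put_adj h' c' r).1 h1)
  have e1 : s.1 = put v c (put w d r) := by rw [e, e']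
  have e2 : s.1 = put w d (put v c r) := by rw [e1, put_comm h]
  apply Subtype.ext
  have f1 : (act w b s).1 = put v c (put w (d * b) r) := by
    rw [act_eq (hwc c) e2 b, put_comm h']
  have f2 : (act v a s).1 = put w d (put v (c * a) r) := by
    rw [act_eq (hvd d) e1 a, put_comm h]
  rw [act_eq (hvd (d * b)) f1 a, act_eq (hwc (c * a)) f2 b, put_comm h]

/-- the action of the vertex group -/
noncomputable def actHom (v : K.V) : A →* Equiv.Perm (VS K A) where
  toFun a :=
    { toFun := act v a
      invFun := act v a⁻¹
      left_inv := fun s => by rw [act_act, inv_mul_cancel, act_one]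
      right_inv := fun s => by rw [act_act, mul_inv_cancel, act_one] }
  map_one' := Equiv.ext fun s => act_one v s
  map_mul' a b := Equiv.ext fun s => (act_act v a b s).symm

end Pil

open Pil

theorem partW : PartW := by
  intro K A _
  obtain ⟨F, hF⟩ := K.exists_lift A (H := Equiv.Perm (VS K A)) (fun v => actHom v) (by
    intro v w h a b
    exact Equiv.ext fun s => act_comm h a b s)
  set st : K.W A → VS K A := fun w => F w⁻¹ ⟨emp, Valid.nil⟩ with hst
  have hact : ∀ w v a, st (w * K.of A v a) = act v a⁻¹ (st w) := by
    intro w v a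
    have h1 : F (K.of A v a)⁻¹ = actHom v a⁻¹ := by
      rw [map_inv, hF, ← map_inv]
    change F (w * K.of A v a)⁻¹ _ = act v a⁻¹ (F w⁻¹ _)
    rw [mul_inv_rev, map_mul, h1]
    rfl
  refine ⟨fun w => (st w).1.2, fun w => {v | In (st w).1 v}, ?_, ?_, ?_, ?_⟩
  · intro w v hv u hu hvu
    exact pairwise (st w).2 hv hu hvu
  · intro w v
    obtain ⟨t, c, _, hv, e⟩ := decomp (st w).2 v
    refine ⟨c, ?_⟩
    change ¬ In (st (w * K.of A v c)).1 v
    rw [hact, act_eq hv e, mul_inv_cancel, put_one]
    exact hv
  · intro w v a hv ha
    have hv' : ¬ In (st w).1 v := hv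
    have e : (st w).1 = put v 1 (st w).1 := (put_one v _).symm
    have h1 : (st (w * K.of A v a)).1 = push v a⁻¹ (st w).1 := by
      rw [hact, act_eq hv' e, one_mul, put_ne (inv_ne_one.2 ha)]
    refine ⟨?_, ?_⟩
    · change In (st (w * K.of A v a)).1 v
      rw [h1]
      exact In_push_same v _ _
    · change (st (w * K.of A v a)).1.2 = (st w).1.2 + 1
      rw [h1, push_snd]
  · intro w u v a h
    change In (st (w * K.of A v a)).1 u ↔ In (st w).1 u
    obtain ⟨t, c, _, hv, e⟩ := decomp (st w).2 v
    rw [hact, act_eq hv e, In_put_adj h, e, In_put_adj h]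

end Vale.Agent.P173
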